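import Vale.Agent.P259.Shape

/-!
# Being connected by a cell is an equivalence relation
-/

noncomputable section

open CategoryTheory Opposite Vale.Agent.P259.GlobSum

namespace Vale.Agent.P259

variable {C : GlobExt}

/-- Equal maps make a parallel pair. -/
theorem parallel_refl {S : GlobSum} : ∀ {n : ℕ} (f : C.Hom (disc n) S), Parallel C f f
  | 0, _ => trivial
  | _ + 1, _ => ⟨rfl, rfl⟩

/-- The two faces of a disc make a parallel pair, in either order. -/
theorem parallel_tgt_src : ∀ n : ℕ, Parallel C (C.ι (tgt n)) (C.ι (src n))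
  | 0 => trivial
  | m + 1 => ⟨by rw [← C.ι_comp, ← C.ι_comp, src_src],
      by rw [← C.ι_comp, ← C.ι_comp, tgt_src]⟩

/-- The outer faces of two glued discs make a parallel pair. -/
theorem parallel_outer (n : ℕ) (h₂ : n < (disc (n + 1)).head) :
    Parallel C (C.ι (src n ≫ GlobSum.inl n.lt_succ_self h₂))
      (C.ι (tgt n ≫ GlobSum.inr n.lt_succ_self h₂)) := by
  cases n with
  | zero => trivial
  | succ m =>
    have glue : tgt (m + 1) ≫ GlobSum.inl (m + 1).lt_succ_self h₂ =
        src (m + 1) ≫ GlobSum.inr (m + 1).lt_succ_self h₂ := by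
      refine (cons_glue (m + 1).lt_succ_self h₂).trans ?_
      refine congrArg (fun f => f ≫ GlobSum.inr (m + 1).lt_succ_self h₂) ?_
      exact (congrArg (discMap _ ≫ ·) (GlobExt.inclHead_disc (m + 2))).trans (Category.comp_id _)
    refine ⟨?_, ?_⟩
    · rw [← C.ι_comp, ← C.ι_comp, ← Category.assoc, src_src, Category.assoc, glue,
        ← Category.assoc, src_src, Category.assoc]
    · rw [← C.ι_comp, ← C.ι_comp, ← Category.assoc, tgt_src, Category.assoc, glue,
        ← Category.assoc, tgt_src, Category.assoc]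

/-- Being connected by a cell is an equivalence relation. -/
theorem connected_equivalence (hC : IsCoherator C) (X : Gpd C) (n : ℕ) :
    Equivalence (X.Connected (n := n)) where
  refl a := by
    obtain ⟨h, hs, ht⟩ := (hC.2 n _ _ _ (parallel_refl (C.id (disc n)))).some
    refine ⟨X.act h a, ?_, ?_⟩
    · exact (X.act_comp _ _ a).symm.trans ((congrArg (fun f => X.act f a) hs).trans (X.act_id a))
    · exact (X.act_comp _ _ a).symm.trans ((congrArg (fun f => X.act f a) ht).trans (X.act_id a))
  symm := by
    rintro a b ⟨c, rfl, rfl⟩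
    obtain ⟨h, hs, ht⟩ := (hC.2 n _ _ _ (parallel_tgt_src n)).some
    exact ⟨X.act h c, (X.act_comp _ _ c).symm.trans (congrArg (fun f => X.act f c) hs),
      (X.act_comp _ _ c).symm.trans (congrArg (fun f => X.act f c) ht)⟩
  trans := by
    rintro a b d ⟨u, rfl, rfl⟩ ⟨v, hv, rfl⟩
    have h₂ : n < (disc (n + 1)).head := n.lt_succ_self
    have key : X.act (C.ι (discMap (.bd n.lt_succ_self true))) u =
        X.act (C.ι (discMap (.bd h₂ false) ≫ GlobSum.inclHead (disc (n + 1)))) v := by
      refine hv.symm.trans (congrArg (fun f => X.act (C.ι f) v) ?_)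
      exact ((congrArg (discMap _ ≫ ·) (GlobExt.inclHead_disc (n + 1))).trans
        (Category.comp_id _)).symm
    obtain ⟨w, ⟨hw1, hw2⟩, -⟩ := X.cons_val n.lt_succ_self h₂ u v key
    obtain ⟨h, hs, ht⟩ := (hC.2 n _ _ _ (parallel_outer n h₂)).some
    refine ⟨X.act h w, ?_, ?_⟩
    · refine (X.act_comp _ _ w).symm.trans ((congrArg (fun f => X.act f w) hs).trans ?_)
      exact (X.act_ι_comp _ _ w).symm.trans (congrArg (X.act _) hw1)
    · refine (X.act_comp _ _ w).symm.trans ((congrArg (fun f => X.act f w) ht).trans ?_)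
      exact (X.act_ι_comp _ _ w).symm.trans (congrArg (X.act _) hw2)

end Vale.Agent.P259
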