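import Vale.Agent.P259.Ext.GX

/-!
# A map of groupoids with lifts of cells rel faces is a weak equivalence
-/

noncomputable section

open CategoryTheory Opposite

namespace Vale.Agent.P259

namespace Gpd

variable {C : GlobExt} (X : Gpd C) (κ : IdLift C)

theorem s_idPull {n : ℕ} (a : X.cells n) : X.s (X.pull (κ n).1 a) = a :=
  ((X.act_comp _ _ a).symm.trans
    ((congrArg (fun h => X.act h a) (κ n).2.1).trans (X.act_id a)))

theorem t_idPull {n : ℕ} (a : X.cells n) : X.t (X.pull (κ n).1 a) = a :=
  ((X.act_comp _ _ a).symm.trans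
    ((congrArg (fun h => X.act h a) (κ n).2.2).trans (X.act_id a)))

end Gpd

/-- A map that is surjective on 0-cells and lifts cells rel parallel faces is a weak equivalence. -/
theorem weqGpd_of_trivFib {C : GlobExt} {Z X : Gpd C} (f : Z ⟶ X) (κ : IdLift C)
    (h0 : Function.Surjective (Gpd.app f (n := 0)))
    (hlift : ∀ (n : ℕ) (a b : Z.cells n), Gpd.Par Z a b → ∀ u : X.cells (n + 1),
      X.s u = Gpd.app f a → X.t u = Gpd.app f b →
      ∃ z : Z.cells (n + 1), Z.s z = a ∧ Z.t z = b ∧ Gpd.app f z = u) :
    weqGpd κ f := by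
  have hrefl : ∀ (n : ℕ) (a b : Z.cells n), Gpd.Par Z a b → Gpd.app f a = Gpd.app f b →
      Z.Connected a b := fun n a b hp e => by
    obtain ⟨z, hz⟩ := hlift n a b hp (X.pull (κ n).1 (Gpd.app f a)) (X.s_idPull κ _)
      ((X.t_idPull κ _).trans e)
    exact ⟨z, hz.1, hz.2.1⟩
  refine ⟨⟨?_, ?_⟩, fun n x => ⟨?_, ?_⟩⟩
  · intro p q hpq
    induction p using Quot.ind with
    | _ a =>
      induction q using Quot.ind with
      | _ b =>
        have h : Relation.EqvGen X.Connected (Gpd.app f a) (Gpd.app f b) := Quot.eqvGen_exact hpq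
        have key : ∀ u v, Relation.EqvGen (X.Connected (n := 0)) u v → ∀ a b : Z.cells 0,
            Gpd.app f a = u → Gpd.app f b = v →
              (Quot.mk _ a : Z.π₀) = Quot.mk _ b := by
          intro u v huv
          induction huv with
          | rel u v h =>
            intro a b ha hb
            obtain ⟨c, hs, ht⟩ := h
            obtain ⟨z, hz⟩ := hlift 0 a b trivial c (hs.trans ha.symm) (ht.trans hb.symm)
            exact Quot.sound ⟨z, hz.1, hz.2.1⟩
          | refl u =>
            intro a b ha hb
            exact Quot.sound (hrefl 0 a b trivial (ha.trans hb.symm))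
          | symm u v _ ih => exact fun a b ha hb => (ih b a hb ha).symm
          | trans u v w _ _ ih₁ ih₂ =>
            intro a b ha hb
            obtain ⟨c, hc⟩ := h0 v
            exact (ih₁ a c ha hc).trans (ih₂ c b hc hb)
        exact key _ _ h a b rfl rfl
  · intro p
    induction p using Quot.ind with
    | _ u =>
      obtain ⟨a, rfl⟩ := h0 u
      exact ⟨Quot.mk _ a, rfl⟩
  · intro p q hpq
    induction p using Quot.ind with
    | _ a =>
      induction q using Quot.ind with
      | _ b =>
        let r : X.Loops κ n (Gpd.app f x) → X.Loops κ n (Gpd.app f x) → Prop :=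
          fun u v => X.Connected u.1 v.1
        let im : Z.Loops κ n x → X.cells (n + 1) := fun c => Gpd.app f c.1
        have key : ∀ u v : X.Loops κ n (Gpd.app f x), Relation.EqvGen r u v →
            ∀ a b : Z.Loops κ n x, im a = u.1 → im b = v.1 →
              (Quot.mk _ a : Z.π κ n x) = Quot.mk _ b := by
          intro u v huv
          induction huv with
          | rel u v h =>
            intro a b ha hb
            obtain ⟨c, hs, ht⟩ := h
            obtain ⟨z, hz⟩ := hlift (n + 1) a.1 b.1
              ⟨a.2.1.trans b.2.1.symm, a.2.2.trans b.2.2.symm⟩ c (hs.trans ha.symm)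
              (ht.trans hb.symm)
            exact Quot.sound ⟨z, hz.1, hz.2.1⟩
          | refl u =>
            intro a b ha hb
            exact Quot.sound (hrefl (n + 1) a.1 b.1
              ⟨a.2.1.trans b.2.1.symm, a.2.2.trans b.2.2.symm⟩ (ha.trans hb.symm))
          | symm u v _ ih => exact fun a b ha hb => (ih b a hb ha).symm
          | trans u v w _ _ ih₁ ih₂ =>
            intro a b ha hb
            obtain ⟨z, hzs, hzt, hz⟩ := hlift n (Z.idCell κ x n) (Z.idCell κ x n)
              (by cases n <;> trivial)
              v.1 (v.2.1.trans (Gpd.app_idCell f κ x n).symm)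
              (v.2.2.trans (Gpd.app_idCell f κ x n).symm)
            exact (ih₁ a ⟨z, hzs, hzt⟩ ha hz).trans (ih₂ ⟨z, hzs, hzt⟩ b hz hb)
        exact key _ _ (Quot.eqvGen_exact hpq) a b rfl rfl
  · intro p
    induction p using Quot.ind with
    | _ u =>
      obtain ⟨z, hzs, hzt, hz⟩ := hlift n (Z.idCell κ x n) (Z.idCell κ x n)
        (by cases n <;> trivial)
        u.1 (u.2.1.trans (Gpd.app_idCell f κ x n).symm)
        (u.2.2.trans (Gpd.app_idCell f κ x n).symm)
      exact ⟨Quot.mk _ ⟨z, hzs, hzt⟩, congrArg (Quot.mk _) (Subtype.ext hz)⟩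

end Vale.Agent.P259
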